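import Mathlib
import Vale.Agent.H29.CK.Defs

/-!
# P322: the one-variable inequality behind the star property (polynomial certificates)
-/

open Real Set

namespace CK.H3S

noncomputable def kq (z : ℝ) : ℝ := 129/200 * z^2 * (1 + 279/1000 * ((1 - z) * (5 - 3 * z)))

noncomputable def S8 (z : ℝ) : ℝ := z + z^2/2 + z^3/3 + z^4/4 + z^5/5 + z^6/6 + z^7/7 + z^8/8

noncomputable def U7 (z : ℝ) : ℝ :=
  z/2 + z^2/8 + z^3/24 + z^4/64 + z^5/160 + z^6/384 + z^7/896 + 9/10000 * z^8

theorem polyA1 {z : ℝ} (h0 : (0) ≤ z) (h1 : z ≤ (1/2)) :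
    0 ≤ (1 - kq z) * S8 z - (2 - kq z) * U7 z - kq z * (279/1000 * (2*z - 3*z^2)) := by
  have ha : 0 ≤ z - (0) := by linarith
  have hb : 0 ≤ (1/2) - z := by linarith
  have hz : 0 ≤ z := by linarith
  have e : (1 - kq z) * S8 z - (2 - kq z) * U7 z - kq z * (279/1000 * (2*z - 3*z^2)) = z^2 * (
      (256) * (z^0 * ((1/2) - z)^10) +
      (144625122/78125) * (z^1 * ((1/2) - z)^9) +
      (2253688007/390625) * (z^2 * ((1/2) - z)^8) +
      (15688058339/1562500) * (z^3 * ((1/2) - z)^7) +
      (788180543101/75000000) * (z^4 * ((1/2) - z)^6) +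
      (163923406221/25000000) * (z^5 * ((1/2) - z)^5) +
      (87677595227/40000000) * (z^6 * ((1/2) - z)^4) +
      (2305388251553/8400000000) * (z^7 * ((1/2) - z)^3) +
      (4970655181/160000000) * (z^8 * ((1/2) - z)^2) +
      (2728388104973/56000000000) * (z^9 * ((1/2) - z)^1) +
      (2365216081517/168000000000) * (z^10 * ((1/2) - z)^0)) := by
    unfold kq S8 U7; ring
  rw [e]
  positivity

theorem polyA2 {z : ℝ} (h0 : (1/2) ≤ z) (h1 : z ≤ (2/3)) :
    0 ≤ (1 - kq z) * S8 z - (2 - kq z) * U7 z - kq z * (279/1000 * (2*z - 3*z^2)) := by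
  have ha : 0 ≤ z - (1/2) := by linarith
  have hb : 0 ≤ (2/3) - z := by linarith
  have hz : 0 ≤ z := by linarith
  have e : (1 - kq z) * S8 z - (2 - kq z) * U7 z - kq z * (279/1000 * (2*z - 3*z^2)) = z^2 * (
      (46554548132499111/56000000000) * ((z - (1/2))^0 * ((2/3) - z)^10) +
      (567024445363137921/56000000000) * ((z - (1/2))^1 * ((2/3) - z)^9) +
      (1545671928891307761/28000000000) * ((z - (1/2))^2 * ((2/3) - z)^8) +
      (2473334999744238531/14000000000) * ((z - (1/2))^3 * ((2/3) - z)^7) +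
      (366956026435050813/1000000000) * ((z - (1/2))^4 * ((2/3) - z)^6) +
      (64595387508618609/125000000) * ((z - (1/2))^5 * ((2/3) - z)^5) +
      (62482177342060821/125000000) * ((z - (1/2))^6 * ((2/3) - z)^4) +
      (17945623067521689/54687500) * ((z - (1/2))^7 * ((2/3) - z)^3) +
      (1914446235909762/13671875) * ((z - (1/2))^8 * ((2/3) - z)^2) +
      (479859478816554/13671875) * ((z - (1/2))^9 * ((2/3) - z)^1) +
      (53685882084132/13671875) * ((z - (1/2))^10 * ((2/3) - z)^0)) := by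
    unfold kq S8 U7; ring
  rw [e]
  positivity

theorem polyB {z : ℝ} (h0 : (2/3) ≤ z) (h1 : z ≤ (1)) :
    0 ≤ (1 - kq z) * S8 z - (2 - kq z) * U7 z := by
  have ha : 0 ≤ z - (2/3) := by linarith
  have hb : 0 ≤ (1) - z := by linarith
  have hz : 0 ≤ z := by linarith
  have e : (1 - kq z) * S8 z - (2 - kq z) * U7 z = z^2 * (
      (13421470521033/3500000000) * ((z - (2/3))^0 * ((1) - z)^10) +
      (2339327935503/62500000) * ((z - (2/3))^1 * ((1) - z)^9) +
      (1159996459565061/7000000000) * ((z - (2/3))^2 * ((1) - z)^8) +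
      (3059681052663621/7000000000) * ((z - (2/3))^3 * ((1) - z)^7) +
      (6060333064319109/8000000000) * ((z - (2/3))^4 * ((1) - z)^6) +
      (224009444931903/250000000) * ((z - (2/3))^5 * ((1) - z)^5) +
      (11618795139320007/16000000000) * ((z - (2/3))^6 * ((1) - z)^4) +
      (43992983029917249/112000000000) * ((z - (2/3))^7 * ((1) - z)^3) +
      (1060238521209051/8000000000) * ((z - (2/3))^8 * ((1) - z)^2) +
      (335269619246853/14000000000) * ((z - (2/3))^9 * ((1) - z)^1) +
      (10583608149/7000000) * ((z - (2/3))^10 * ((1) - z)^0)) := by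
    unfold kq S8 U7; ring
  rw [e]
  positivity

end CK.H3S
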