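import Mathlib
import Vale.Agent.H29.CK.Defs

import Vale.Agent.H3.CK.Poly

/-!
# P322 (i): the one-variable logarithmic inequality
-/

open Real Set Filter Topology

namespace CK.H3S

theorem S8_le {z : ℝ} (h0 : 0 ≤ z) (h1 : z < 1) : S8 z ≤ -log (1 - z) := by
  have h := hasSum_pow_div_log_of_abs_lt_one (x := z) (by rw [abs_of_nonneg h0]; exact h1)
  have h2 := sum_le_hasSum (Finset.range 8) (fun i _ => by positivity) h
  refine le_trans (le_of_eq ?_) h2
  unfold S8
  simp only [Finset.sum_range_succ, Finset.sum_range_zero]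
  norm_num

theorem U7_ge {z : ℝ} (h0 : 0 ≤ z) (h1 : z ≤ 1) : -log (1 - z / 2) ≤ U7 z := by
  have h := hasSum_pow_div_log_of_abs_lt_one (x := z / 2)
    (by rw [abs_of_nonneg (by positivity)]; linarith)
  have g := hasSum_pow_div_log_of_abs_lt_one (x := (1 : ℝ) / 2)
    (by rw [abs_of_nonneg (by positivity)]; norm_num)
  have h' := (hasSum_nat_add_iff' 7).2 h
  have g' := ((hasSum_nat_add_iff' 7).2 g).mul_left (z ^ 8)
  have hle := hasSum_le (fun n => ?_) h' g'
  · have e : -log (1 - (1 : ℝ) / 2) = log 2 := by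
      rw [← log_inv]; norm_num
    rw [e] at hle
    simp only [Finset.sum_range_succ, Finset.sum_range_zero] at hle
    have hl := log_two_lt_d9
    have hz8 : 0 ≤ z ^ 8 := by positivity
    unfold U7
    norm_num at hle
    nlinarith
  · have hz : z ^ (n + 8) ≤ z ^ 8 := pow_le_pow_of_le_one h0 h1 (by omega)
    have e1 : (z / 2) ^ (n + 7 + 1) / ((↑(n + 7) : ℝ) + 1)
        = z ^ (n + 8) * ((1 / 2) ^ (n + 7 + 1) / ((↑(n + 7) : ℝ) + 1)) := by
      rw [div_pow, div_pow, one_pow]; ring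
    rw [e1]
    exact mul_le_mul_of_nonneg_right hz (by positivity)

theorem kq_le {z : ℝ} (h0 : 0 ≤ z) (h1 : z ≤ 1) : kq z ≤ 1 := by
  have hz2 : z ^ 2 ≤ 1 := by nlinarith
  have hz2' : z ^ 2 ≤ z := by nlinarith
  have hz3 : 0 ≤ z ^ 3 := by positivity
  have h : 0 ≤ (1 + z) - 279 / 1000 * (5 * z ^ 2 - 3 * z ^ 3) := by nlinarith
  have e : 129 / 200 - kq z
      = 129 / 200 * ((1 - z) * ((1 + z) - 279 / 1000 * (5 * z ^ 2 - 3 * z ^ 3))) := by
    unfold kq; ring
  have : 0 ≤ 129 / 200 * ((1 - z) * ((1 + z) - 279 / 1000 * (5 * z ^ 2 - 3 * z ^ 3))) := by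
    have : 0 ≤ 1 - z := by linarith
    positivity
  linarith

/-- The one-variable inequality. -/
theorem onevar {κ z : ℝ} (hκ : κ ≤ 129 / 200) (h0 : 0 < z) (h1 : z < 1) :
    κ * z ^ 2 * (1 + c0 * ((1 - z) * (5 - 3 * z))) *
      (log ((2 - z) * (1 + c0 * (1 - z) ^ 2)) - log (2 * (1 - z) * (1 + c0 * (1 - 2 * z) ^ 2)))
      ≤ 2 * log (2 - z) - log (4 * (1 - z)) := by
  have hc1 : (2786 : ℝ) / 10000 < c0 := by linarith [c0_gt]
  have hc2 : c0 < (2787 : ℝ) / 10000 := by linarith [c0_lt]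
  have hz1 : 0 < 1 - z := by linarith
  have hz2 : 0 < 1 - z / 2 := by linarith
  have hn1 : 1 ≤ 1 + c0 * (1 - z) ^ 2 := by nlinarith [sq_nonneg (1 - z)]
  have hn2 : 1 ≤ 1 + c0 * (1 - 2 * z) ^ 2 := by nlinarith [sq_nonneg (1 - 2 * z)]
  set a := -log (1 - z) with ha
  set b := -log (1 - z / 2) with hb
  set n := log (1 + c0 * (1 - z) ^ 2) - log (1 + c0 * (1 - 2 * z) ^ 2) with hn
  have hS : S8 z ≤ a := S8_le h0.le h1
  have hU : b ≤ U7 z := U7_ge h0.le h1.le
  have e2 : log (2 - z) = log 2 - b := by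
    rw [hb, show (2 : ℝ) - z = 2 * (1 - z / 2) by ring, log_mul (by norm_num) hz2.ne']; ring
  have e1 : log ((2 - z) * (1 + c0 * (1 - z) ^ 2)) - log (2 * (1 - z) * (1 + c0 * (1 - 2 * z) ^ 2))
      = a - b + n := by
    rw [log_mul (by linarith) (by linarith), log_mul (by positivity) (by linarith),
      log_mul (by norm_num) hz1.ne', e2, ha, hn]
    ring
  have e3 : 2 * log (2 - z) - log (4 * (1 - z)) = a - 2 * b := by
    rw [log_mul (by norm_num) hz1.ne', e2, show (4 : ℝ) = 2 * 2 by norm_num,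
      log_mul (by norm_num) (by norm_num), ha]
    ring
  rw [e1, e3]
  -- the log ratio is nonnegative
  have hpos : 0 ≤ a - b + n := by
    rw [← e1]
    have : 2 * (1 - z) * (1 + c0 * (1 - 2 * z) ^ 2) ≤ (2 - z) * (1 + c0 * (1 - z) ^ 2) := by
      have : (2 - z) * (1 + c0 * (1 - z) ^ 2) - 2 * (1 - z) * (1 + c0 * (1 - 2 * z) ^ 2)
          = z * ((1 - c0) + 6 * c0 * (1 - z) ^ 2 + c0 * z ^ 2) := by ring
      have h' : 0 ≤ z * ((1 - c0) + 6 * c0 * (1 - z) ^ 2 + c0 * z ^ 2) := by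
        have : 0 ≤ 1 - c0 := by linarith
        have : 0 ≤ c0 := by linarith
        positivity
      linarith
    have := log_le_log (by positivity) this
    linarith
  have hq : 0 ≤ (1 - z) * (5 - 3 * z) := by
    apply mul_nonneg <;> linarith
  have hk : κ * z ^ 2 * (1 + c0 * ((1 - z) * (5 - 3 * z))) ≤ kq z := by
    unfold kq
    have : 0 ≤ c0 := by linarith
    gcongr
    linarith
  have hk0 : 0 ≤ kq z := by unfold kq; positivity
  have hk1 : kq z ≤ 1 := kq_le h0.le h1.le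
  have step1 : κ * z ^ 2 * (1 + c0 * ((1 - z) * (5 - 3 * z))) * (a - b + n)
      ≤ kq z * (a - b + n) := mul_le_mul_of_nonneg_right hk hpos
  -- bound on n
  have hrat : n ≤ ((1 + c0 * (1 - z) ^ 2) / (1 + c0 * (1 - 2 * z) ^ 2)) - 1 := by
    rw [hn, ← log_div (by linarith) (by linarith)]
    exact log_le_sub_one_of_pos (by positivity)
  have hn2p : 0 < 1 + c0 * (1 - 2 * z) ^ 2 := by linarith
  have hrat2 : ((1 + c0 * (1 - z) ^ 2) / (1 + c0 * (1 - 2 * z) ^ 2)) - 1
      = c0 * (2 * z - 3 * z ^ 2) / (1 + c0 * (1 - 2 * z) ^ 2) := by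
    field_simp; ring
  rw [hrat2] at hrat
  have m1 : (1 - kq z) * S8 z ≤ (1 - kq z) * a := mul_le_mul_of_nonneg_left hS (by linarith)
  have m2 : (2 - kq z) * b ≤ (2 - kq z) * U7 z := mul_le_mul_of_nonneg_left hU (by linarith)
  rcases le_total z (2 / 3) with h23 | h23
  · have hp : 0 ≤ 2 * z - 3 * z ^ 2 := by nlinarith
    have hn' : n ≤ 279 / 1000 * (2 * z - 3 * z ^ 2) := by
      refine hrat.trans ?_
      rw [div_le_iff₀ hn2p]
      have : c0 * (2 * z - 3 * z ^ 2) ≤ 279 / 1000 * (2 * z - 3 * z ^ 2) :=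
        mul_le_mul_of_nonneg_right (by linarith) hp
      have h3 : 0 ≤ 279 / 1000 * (2 * z - 3 * z ^ 2) := by positivity
      exact this.trans (le_mul_of_one_le_right h3 hn2)
    have m3 : kq z * n ≤ kq z * (279 / 1000 * (2 * z - 3 * z ^ 2)) :=
      mul_le_mul_of_nonneg_left hn' hk0
    rcases le_total z (1 / 2) with h12 | h12
    · have := polyA1 (z := z) (by linarith) (by linarith)
      linarith
    · have := polyA2 (z := z) (by linarith) (by linarith)
      linarith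
  · have hp : c0 * (2 * z - 3 * z ^ 2) ≤ 0 := by
      apply mul_nonpos_of_nonneg_of_nonpos (by linarith)
      nlinarith
    have hn' : n ≤ 0 := hrat.trans (div_nonpos_of_nonpos_of_nonneg hp hn2p.le)
    have m3 : kq z * n ≤ 0 := mul_nonpos_of_nonneg_of_nonpos hk0 hn'
    have := polyB (z := z) (by linarith) (by linarith)
    linarith

end CK.H3S
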