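import Mathlib
import Vale.Agent.H29.CK.Defs
import Vale.Agent.H3.CK.OneVar

/-!
# P322 (i): the two-variable inequality behind the star property
-/

open Real Set Filter Topology

namespace CK.H3S

theorem twovar {κ z ε : ℝ} (hκ0 : 0 ≤ κ) (hκ : κ ≤ 129 / 200) (h0 : 0 < z) (h1 : z ≤ 1)
    (e0 : 0 ≤ ε) (e1 : ε < z) :
    κ * z ^ 2 * (1 + c0 * ((1 - z) * (5 - 3 * z))) *
      (log (z * (2 - z) * (1 + c0 * (1 - z) ^ 2)) - log (z * (2 - z) * (1 + c0 * (1 - z) ^ 2)
        - ε ^ 2 * ((1 - c0) + 6 * c0 * (1 - z) ^ 2 + c0 * ε ^ 2)))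
      ≤ 2 * log (2 - z) - log ((2 - z) ^ 2 - ε ^ 2) := by
  have hc1 : (2786 : ℝ) / 10000 < c0 := by linarith [c0_gt]
  have hc2 : c0 < (2787 : ℝ) / 10000 := by linarith [c0_lt]
  have hc0 : 0 ≤ c0 := by linarith
  have hz2 : 0 < 2 - z := by linarith
  have hn1 : 0 < 1 + c0 * (1 - z) ^ 2 := by positivity
  have hn2 : 0 < 1 + c0 * (1 - 2 * z) ^ 2 := by positivity
  set k := κ * z ^ 2 * (1 + c0 * ((1 - z) * (5 - 3 * z))) with hk
  have hq : 0 ≤ (1 - z) * (5 - 3 * z) := by
    apply mul_nonneg <;> linarith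
  have hk0 : 0 ≤ k := by positivity
  have hk1 : k ≤ 1 := by
    refine le_trans ?_ (kq_le h0.le h1)
    rw [hk]
    unfold kq
    gcongr
    linarith
  set PP := z * (2 - z) * (1 + c0 * (1 - z) ^ 2) with hPP
  have hPPpos : 0 < PP := by positivity
  set y := 2 * (1 - z) * (1 + c0 * (1 - 2 * z) ^ 2) / ((2 - z) * (1 + c0 * (1 - z) ^ 2)) with hy
  have hy0 : 0 ≤ y := by
    have : 0 ≤ 1 - z := by linarith
    positivity
  set X := 4 * (1 - z) / (2 - z) ^ 2 with hX
  have hXy : X ≤ y ^ k := by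
    rcases h1.eq_or_lt with h | h
    · have : X = 0 := by rw [hX, h]; simp
      rw [this]; exact rpow_nonneg hy0 _
    · have hz1 : 0 < 1 - z := by linarith
      have hyp : 0 < y := by positivity
      have hXp : 0 < X := by positivity
      have := onevar hκ h0 h
      rw [← log_le_log_iff hXp (rpow_pos_of_pos hyp _), log_rpow hyp]
      have e : log y = log (2 * (1 - z) * (1 + c0 * (1 - 2 * z) ^ 2))
          - log ((2 - z) * (1 + c0 * (1 - z) ^ 2)) := by
        rw [hy, log_div (by positivity) (by positivity)]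
      have e' : log X = log (4 * (1 - z)) - 2 * log (2 - z) := by
        rw [hX, log_div (by positivity) (by positivity), log_pow]; norm_num
      rw [e, e']
      rw [← hk, mul_sub k] at this
      rw [mul_sub k]
      linarith
  -- concavity
  set l := ε ^ 2 / z ^ 2 with hl
  have hl0 : 0 ≤ l := by positivity
  have hl1 : l ≤ 1 := by
    rw [hl, div_le_one (by positivity)]
    exact pow_le_pow_left₀ e0 e1.le 2
  have hl1' : l < 1 := by
    rw [hl, div_lt_one (by positivity)]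
    exact pow_lt_pow_left₀ e1 e0 (by norm_num)
  have hl2 : 0 ≤ 1 - l := by linarith
  have hconc := (Real.concaveOn_rpow hk0 hk1).2 (show (1 : ℝ) ∈ Ici (0 : ℝ) by simp)
    (show y ∈ Ici (0 : ℝ) from hy0) hl2 hl0 (by ring)
  simp only [smul_eq_mul, one_rpow, mul_one] at hconc
  have hbase : 0 < 1 - l + l * y := by
    have : 0 ≤ l * y := by positivity
    linarith
  have h3 : 1 - l + l * X ≤ (1 - l + l * y) ^ k := by
    have := mul_le_mul_of_nonneg_left hXy hl0
    linarith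
  have h4 : 0 < 1 - l + l * X := by
    have : 0 ≤ X := by
      have : 0 ≤ 1 - z := by linarith
      positivity
    have : 0 ≤ l * X := by positivity
    linarith
  have h5 : log (1 - l + l * X) ≤ k * log (1 - l + l * y) := by
    rw [← log_rpow hbase]
    exact log_le_log h4 h3
  -- identification
  have h6 : 1 - l + l * X = ((2 - z) ^ 2 - ε ^ 2) / (2 - z) ^ 2 := by
    rw [hl, hX]
    field_simp
    ring
  have h7 : (1 - l + l * y) * PP = PP - ε ^ 2 * ((1 - c0) + 6 * c0 * (1 - z) ^ 2 + c0 * z ^ 2) := by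
    rw [hl, hy, hPP]
    field_simp
    ring
  have h8 : (1 - l + l * y) * PP
      ≤ PP - ε ^ 2 * ((1 - c0) + 6 * c0 * (1 - z) ^ 2 + c0 * ε ^ 2) := by
    rw [h7]
    have : ε ^ 2 ≤ z ^ 2 := pow_le_pow_left₀ e0 e1.le 2
    have : ε ^ 2 * ((1 - c0) + 6 * c0 * (1 - z) ^ 2 + c0 * ε ^ 2)
        ≤ ε ^ 2 * ((1 - c0) + 6 * c0 * (1 - z) ^ 2 + c0 * z ^ 2) := by gcongr
    linarith
  have h9 : log (1 - l + l * y) + log PP
      ≤ log (PP - ε ^ 2 * ((1 - c0) + 6 * c0 * (1 - z) ^ 2 + c0 * ε ^ 2)) := by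
    rw [← log_mul hbase.ne' hPPpos.ne']
    exact log_le_log (by positivity) h8
  have h10 : log (1 - l + l * X) = log ((2 - z) ^ 2 - ε ^ 2) - 2 * log (2 - z) := by
    have : 0 < (2 - z) ^ 2 - ε ^ 2 :=
      sub_pos.2 (pow_lt_pow_left₀ (by linarith) e0 (by norm_num))
    rw [h6, log_div this.ne' (by positivity), log_pow]; norm_num
  rw [h10] at h5
  have h11 := mul_le_mul_of_nonneg_left h9 hk0
  rw [mul_add k] at h11
  rw [mul_sub k]
  linarith

end CK.H3S
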