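import Mathlib
import Vale.Agent.H29.CK.II
import Vale.Agent.H3.CK.TwoVar

/-!
# P322 (i): the star property of `Gm`
-/

open Real Set

namespace CK

namespace H3S

theorem H_id {t : ℝ} (h : t ∈ Ioo (-1 : ℝ) 1) : H t - (1 - t) * A t = log 2 - log (1 + t) := by
  have h1 : 0 < 1 + t := by linarith [h.1]
  have h2 : 0 < 1 - t := by linarith [h.2]
  unfold H A binEntropy
  rw [log_inv, log_inv, show 1 - (1 + t) / 2 = (1 - t) / 2 by ring, log_div h1.ne' two_ne_zero,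
    log_div h2.ne' two_ne_zero]
  ring

noncomputable def p1 (η w : ℝ) : ℝ := η * (2 - w * η) * (1 + c0 * (1 - w * η) ^ 2)

noncomputable def p2 (η e w : ℝ) : ℝ :=
  p1 η w - w * e ^ 2 * ((1 - c0) + 6 * c0 * (1 - w * η) ^ 2 + c0 * (w ^ 2 * e ^ 2))

noncomputable def NN (η e w : ℝ) : ℝ :=
  2 * H (1 - w * η) - H (1 - w * (η - e)) - H (1 - w * (η + e))

noncomputable def TT (η e x w : ℝ) : ℝ :=
  NN η e w / w + F2 (p1 η w) x - F2 (p2 η e w) x

theorem Gm_eq {η e x w : ℝ} (hw : 0 < w) :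
    Gm (1 - w * η) (w * e) (w * x) = w * TT η e x w := by
  have e1 : P2 (1 - w * η) = w * p1 η w := by unfold P2 p1; ring
  have e2 : (P2 (1 - w * η + w * e) + P2 (1 - w * η - w * e)) / 2 = w * p2 η e w := by
    unfold P2 p2 p1; ring
  unfold Gm
  rw [e1, e2, F2_smul hw, F2_smul hw]
  unfold TT NN
  rw [show 1 - w * η + w * e = 1 - w * (η - e) by ring,
    show 1 - w * η - w * e = 1 - w * (η + e) by ring]
  field_simp

theorem hasDerivAt_Hlin {a w : ℝ} (h : 1 - w * a ∈ Ioo (-1 : ℝ) 1) :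
    HasDerivAt (fun w => H (1 - w * a)) (a * A (1 - w * a)) w := by
  have h1 : HasDerivAt (fun w : ℝ => 1 - w * a) (-(1 * a)) w :=
    ((hasDerivAt_id w).mul_const a).const_sub 1
  have := (hasDerivAt_H h).comp w h1
  refine this.congr_deriv ?_
  ring

theorem p1_deriv (η w : ℝ) : HasDerivAt (p1 η)
    (-(η ^ 2 * (1 + c0 * ((1 - w * η) * (5 - 3 * (w * η)))))) w := by
  have e : p1 η = fun w => 2 * η * (1 + c0) - w * (η ^ 2 * (1 + 5 * c0))
      + w ^ 2 * (4 * c0 * η ^ 3) - w ^ 3 * (c0 * η ^ 4) := by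
    funext w; unfold p1; ring
  rw [e]
  have h1 := (hasDerivAt_id w).mul_const (η ^ 2 * (1 + 5 * c0))
  have h2 := (hasDerivAt_pow 2 w).mul_const (4 * c0 * η ^ 3)
  have h3 := (hasDerivAt_pow 3 w).mul_const (c0 * η ^ 4)
  have := ((h1.const_sub (2 * η * (1 + c0))).add h2).sub h3
  refine this.congr_deriv ?_
  norm_num
  ring

theorem p2_deriv (η e w : ℝ) : HasDerivAt (p2 η e)
    (-(η ^ 2 * (1 + c0 * ((1 - w * η) * (5 - 3 * (w * η)))))
      - e ^ 2 * ((1 - c0) + 6 * c0 * ((1 - w * η) * (1 - 3 * (w * η)))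
        + 3 * c0 * (w ^ 2 * e ^ 2))) w := by
  have e' : p2 η e = fun w => p1 η w - (w * (e ^ 2 * (1 + 5 * c0)) - w ^ 2 * (12 * c0 * e ^ 2 * η)
      + w ^ 3 * (6 * c0 * e ^ 2 * η ^ 2 + c0 * e ^ 4)) := by
    funext w; unfold p2; ring
  rw [e']
  have h1 := (hasDerivAt_id w).mul_const (e ^ 2 * (1 + 5 * c0))
  have h2 := (hasDerivAt_pow 2 w).mul_const (12 * c0 * e ^ 2 * η)
  have h3 := (hasDerivAt_pow 3 w).mul_const (6 * c0 * e ^ 2 * η ^ 2 + c0 * e ^ 4)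
  have := (p1_deriv η w).sub ((h1.sub h2).add h3)
  refine this.congr_deriv ?_
  norm_num
  ring

variable {η e x w : ℝ}

theorem mem1 (h0 : 0 < η) (h1 : η ≤ 1) (he0 : 0 ≤ e) (he : e < η) (hw0 : 0 < w) (hw1 : w ≤ 1) :
    1 - w * η ∈ Ioo (-1 : ℝ) 1 := by
  have : 0 < w * η := mul_pos hw0 h0
  have : w * η ≤ 1 := mul_le_one₀ hw1 h0.le h1
  constructor <;> linarith

theorem mem2 (h0 : 0 < η) (h1 : η ≤ 1) (he0 : 0 ≤ e) (he : e < η) (hw0 : 0 < w) (hw1 : w ≤ 1) :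
    1 - w * (η - e) ∈ Ioo (-1 : ℝ) 1 := by
  have : 0 < w * (η - e) := mul_pos hw0 (by linarith)
  have : w * (η - e) ≤ 1 := mul_le_one₀ hw1 (by linarith) (by linarith)
  constructor <;> linarith

theorem mem3 (h0 : 0 < η) (h1 : η ≤ 1) (he0 : 0 ≤ e) (he : e < η) (hw0 : 0 < w) (hw1 : w ≤ 1) :
    1 - w * (η + e) ∈ Ioo (-1 : ℝ) 1 := by
  have : 0 < w * (η + e) := mul_pos hw0 (by linarith)
  have : w * (η + e) < 2 := by
    have : w * (η + e) ≤ 1 * (η + e) := mul_le_mul_of_nonneg_right hw1 (by linarith)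
    linarith
  constructor <;> linarith

theorem p1_pos (h0 : 0 < η) (h1 : η ≤ 1) (hw0 : 0 < w) (hw1 : w ≤ 1) : 0 < p1 η w := by
  have hc := c0_gt
  have : w * η ≤ 1 := mul_le_one₀ hw1 h0.le h1
  have : 0 < 2 - w * η := by linarith
  unfold p1
  positivity

theorem p2_pos (h0 : 0 < η) (h1 : η ≤ 1) (he0 : 0 ≤ e) (he : e < η) (hw0 : 0 < w)
    (hw1 : w ≤ 1) : 0 < p2 η e w := by
  have a := P2_pos (mem2 h0 h1 he0 he hw0 hw1)
  have b := P2_pos (mem3 h0 h1 he0 he hw0 hw1)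
  have e2 : (P2 (1 - w * (η - e)) + P2 (1 - w * (η + e))) / 2 = w * p2 η e w := by
    unfold P2 p2 p1; ring
  have : 0 < w * p2 η e w := by rw [← e2]; positivity
  exact pos_of_mul_pos_right this hw0.le

theorem p2_le_p1 (hw0 : 0 < w) : p2 η e w ≤ p1 η w := by
  have hc := c0_gt
  have hc' := c0_lt
  unfold p2
  have h1 : 0 ≤ 1 - c0 := by linarith
  have h2 : 0 ≤ c0 := by linarith
  have : 0 ≤ w * e ^ 2 * ((1 - c0) + 6 * c0 * (1 - w * η) ^ 2 + c0 * (w ^ 2 * e ^ 2)) := by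
    positivity
  linarith

/-- The derivative of `TT`. -/
noncomputable def DD (η e x w : ℝ) : ℝ :=
  ((2 * (η * A (1 - w * η)) - (η - e) * A (1 - w * (η - e)) - (η + e) * A (1 - w * (η + e))) * w
      - NN η e w) / w ^ 2
    + Gw (winv (x / p1 η w)) * (-(η ^ 2 * (1 + c0 * ((1 - w * η) * (5 - 3 * (w * η))))))
    - Gw (winv (x / p2 η e w)) * (-(η ^ 2 * (1 + c0 * ((1 - w * η) * (5 - 3 * (w * η)))))
      - e ^ 2 * ((1 - c0) + 6 * c0 * ((1 - w * η) * (1 - 3 * (w * η)))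
        + 3 * c0 * (w ^ 2 * e ^ 2)))

theorem TT_deriv (h0 : 0 < η) (h1 : η ≤ 1) (he0 : 0 ≤ e) (he : e < η) (hx : 0 < x)
    (hw0 : 0 < w) (hw1 : w ≤ 1) : HasDerivAt (TT η e x) (DD η e x w) w := by
  have d1 := hasDerivAt_Hlin (mem1 h0 h1 he0 he hw0 hw1)
  have d2 := hasDerivAt_Hlin (mem2 h0 h1 he0 he hw0 hw1)
  have d3 := hasDerivAt_Hlin (mem3 h0 h1 he0 he hw0 hw1)
  have dN : HasDerivAt (NN η e) (2 * (η * A (1 - w * η)) - (η - e) * A (1 - w * (η - e))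
      - (η + e) * A (1 - w * (η + e))) w := ((d1.const_mul 2).sub d2).sub d3
  have dQ := dN.div (hasDerivAt_id w) hw0.ne'
  have f1 := (F2_hasDerivAt KL_holds hx (p1_pos h0 h1 hw0 hw1)).comp w (p1_deriv η w)
  have f2 := (F2_hasDerivAt KL_holds hx (p2_pos h0 h1 he0 he hw0 hw1)).comp w (p2_deriv η e w)
  have := (dQ.add f1).sub f2
  refine this.congr_deriv ?_
  unfold DD
  simp only [id, mul_one]

theorem NN_id (h0 : 0 < η) (h1 : η ≤ 1) (he0 : 0 ≤ e) (he : e < η)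
    (hw0 : 0 < w) (hw1 : w ≤ 1) :
    (2 * (η * A (1 - w * η)) - (η - e) * A (1 - w * (η - e)) - (η + e) * A (1 - w * (η + e))) * w
      - NN η e w = 2 * log (2 - w * η) - log ((2 - w * η) ^ 2 - (w * e) ^ 2) := by
  have m1 := mem1 h0 h1 he0 he hw0 hw1
  have m2 := mem2 h0 h1 he0 he hw0 hw1
  have m3 := mem3 h0 h1 he0 he hw0 hw1
  have i1 := H_id m1
  have i2 := H_id m2
  have i3 := H_id m3
  have e1 : log ((2 - w * η) ^ 2 - (w * e) ^ 2)
      = log (1 + (1 - w * (η - e))) + log (1 + (1 - w * (η + e))) := by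
    rw [← log_mul (by linarith [m2.1]) (by linarith [m3.1])]
    congr 1; ring
  have e2 : log (2 - w * η) = log (1 + (1 - w * η)) := by congr 1; ring
  rw [e1, e2]
  unfold NN
  linear_combination (-2) * i1 + i2 + i3

theorem DD_nonneg (h0 : 0 < η) (h1 : η ≤ 1) (he0 : 0 ≤ e) (he : e < η) (hx : 0 < x)
    (hw0 : 0 < w) (hw1 : w ≤ 1) : 0 ≤ DD η e x w := by
  have hc := c0_gt
  have hc' := c0_lt
  have hc0 : 0 ≤ c0 := by linarith
  have hz1 : w * η ≤ 1 := mul_le_one₀ hw1 h0.le h1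
  have hz0 : 0 < w * η := mul_pos hw0 h0
  have pp1 := p1_pos h0 h1 hw0 hw1
  have pp2 := p2_pos h0 h1 he0 he hw0 hw1
  have hle : p2 η e w ≤ p1 η w := p2_le_p1 hw0
  have hK := KL_holds x _ _ hx pp2 hle
  have hg := g_mono hx pp2 hle
  have hg2 : 0 ≤ Gw (winv (x / p2 η e w)) := Gw_nonneg (winv_nonneg _)
  have h2v := twovar (κ := 4 / 3 * (log 2) ^ 2) (z := w * η) (ε := w * e) (by positivity)
    (by linarith [kappa_le]) hz0 hz1 (by positivity) (by gcongr)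
  have eP : w * η * (2 - w * η) * (1 + c0 * (1 - w * η) ^ 2) = w * p1 η w := by unfold p1; ring
  have eP2 : w * η * (2 - w * η) * (1 + c0 * (1 - w * η) ^ 2)
      - (w * e) ^ 2 * ((1 - c0) + 6 * c0 * (1 - w * η) ^ 2 + c0 * (w * e) ^ 2)
      = w * p2 η e w := by unfold p2 p1; ring
  rw [eP2, eP, log_mul hw0.ne' pp1.ne', log_mul hw0.ne' pp2.ne'] at h2v
  rw [log_div pp1.ne' pp2.ne'] at hK
  unfold DD
  rw [NN_id h0 h1 he0 he hw0 hw1]
  set s1 := Gw (winv (x / p1 η w))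
  set s2 := Gw (winv (x / p2 η e w))
  set α := 1 + c0 * ((1 - w * η) * (5 - 3 * (w * η))) with hα
  set β := (1 - c0) + 6 * c0 * ((1 - w * η) * (1 - 3 * (w * η))) + 3 * c0 * (w ^ 2 * e ^ 2) with hβ
  have hα0 : 0 ≤ α := by
    have : 0 ≤ (1 - w * η) * (5 - 3 * (w * η)) := by apply mul_nonneg <;> linarith
    positivity
  have hβ0 : 0 ≤ β := by
    have a1 : -(1 / 3) ≤ (1 - w * η) * (1 - 3 * (w * η)) := by nlinarith [sq_nonneg (w * η - 2 / 3)]
    have a2 : 0 ≤ 3 * c0 * (w ^ 2 * e ^ 2) := by positivity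
    have a3 := mul_le_mul_of_nonneg_left a1 (by positivity : 0 ≤ 6 * c0)
    linarith
  set R := 2 * log (2 - w * η) - log ((2 - w * η) ^ 2 - (w * e) ^ 2) with hR
  have hw2 : 0 < w ^ 2 := by positivity
  have k1 : (w * η) ^ 2 * α * (s1 - s2) ≤ R := by
    have := mul_le_mul_of_nonneg_left hK (by positivity : 0 ≤ (w * η) ^ 2 * α)
    linarith
  have k2 : η ^ 2 * α * (s1 - s2) ≤ R / w ^ 2 := by
    rw [le_div_iff₀ hw2]
    linarith
  have k3 : 0 ≤ s2 * (e ^ 2 * β) := by positivity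
  linarith

theorem TT_mono (h0 : 0 < η) (h1 : η ≤ 1) (he0 : 0 ≤ e) (he : e < η) (hx : 0 < x)
    (hw0 : 0 < w) (hw1 : w ≤ 1) : TT η e x w ≤ TT η e x 1 := by
  have hd : ∀ v ∈ Icc w 1, HasDerivAt (TT η e x) (DD η e x v) v := fun v hv =>
    TT_deriv h0 h1 he0 he hx (lt_of_lt_of_le hw0 hv.1) hv.2
  have : MonotoneOn (TT η e x) (Icc w 1) := by
    refine monotoneOn_of_deriv_nonneg (convex_Icc w 1)
      (fun v hv => (hd v hv).continuousAt.continuousWithinAt) (fun v hv => ?_) (fun v hv => ?_)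
    · rw [interior_Icc] at hv
      exact (hd v ⟨hv.1.le, hv.2.le⟩).differentiableAt.differentiableWithinAt
    · rw [interior_Icc] at hv
      rw [(hd v ⟨hv.1.le, hv.2.le⟩).deriv]
      exact DD_nonneg h0 h1 he0 he hx (hw0.trans hv.1) hv.2.le
  exact this ⟨le_rfl, hw1⟩ ⟨hw1, le_rfl⟩ hw1

end H3S

/-- (i) The star property. -/
theorem Gm_star {m e h w : ℝ} (hm : 0 ≤ m) (he : 0 ≤ e) (hme : m + e < 1) (hh : 0 < h)
    (hw0 : 0 < w) (hw1 : w ≤ 1) :
    Gm (1 - w * (1 - m)) (w * e) (w * h) ≤ w * Gm m e h := by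
  have h0 : 0 < 1 - m := by linarith
  have h1 : 1 - m ≤ 1 := by linarith
  have hlt : e < 1 - m := by linarith
  rw [H3S.Gm_eq hw0]
  have e1 : Gm m e h = H3S.TT (1 - m) e h 1 := by
    have := H3S.Gm_eq (η := 1 - m) (e := e) (x := h) (w := 1) one_pos
    simp only [one_mul, sub_sub_cancel] at this
    exact this
  rw [e1]
  exact mul_le_mul_of_nonneg_left (H3S.TT_mono h0 h1 he hlt hh hw0 hw1) hw0.le

end CK
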